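import Vale.Agent.Lib.P113_helper28.Flow12b

/-!
P113 (F12): smoothness and periodicity of `vel` and `force`; `(vel, 0)` is a classical solution.
-/

namespace Vale.Agent.Lib.P113
open Set Filter Topology
open scoped ContDiff

theorem phase_neg (D : FlowData) {n : ℤ} (h : n < 0) : phase D n = fun _ => 0 := by
  funext x; unfold phase; rw [if_pos h]

theorem phase_zero (D : FlowData) :
    phase D 0 = fun _ => ![qval D.1.1, qval D.1.2.1, qval D.1.2.2] := by
  funext x; unfold phase; simp

theorem phase_pos (D : FlowData) {n : ℤ} (h : 0 < n) :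
    phase D n = shearField (D.2.getD ((n.toNat - 1) % D.2.length) (0, [])) := by
  funext x; unfold phase
  rw [if_neg (by omega), if_neg (by omega)]

theorem phaseLap_nonpos (D : FlowData) {n : ℤ} (h : n ≤ 0) : phaseLap D n = fun _ => 0 := by
  funext x; unfold phaseLap; rw [if_pos h]

theorem phaseLap_pos (D : FlowData) {n : ℤ} (h : 0 < n) :
    phaseLap D n = shearFieldLap (D.2.getD ((n.toNat - 1) % D.2.length) (0, [])) := by
  funext x; unfold phaseLap
  rw [if_neg (by omega)]

theorem d1_const (v : R3) (j : Fin 3) : d1 (fun _ => v) j = fun _ => 0 := by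
  funext x; unfold d1; simp

/-- every phase is either constant or a shear field -/
theorem phase_cases (D : FlowData) (n : ℤ) :
    ((∃ v : R3, phase D n = fun _ => v) ∧ phaseLap D n = fun _ => 0) ∨
    (∃ S : Shear, phase D n = shearField S ∧ phaseLap D n = shearFieldLap S) := by
  rcases lt_trichotomy n 0 with h | h | h
  · exact Or.inl ⟨⟨0, phase_neg D h⟩, phaseLap_nonpos D h.le⟩
  · subst h
    exact Or.inl ⟨⟨_, phase_zero D⟩, phaseLap_nonpos D le_rfl⟩
  · exact Or.inr ⟨_, phase_pos D h, phaseLap_pos D h⟩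

theorem phase_contDiff (D : FlowData) (n : ℤ) : ContDiff ℝ ∞ (phase D n) := by
  rcases phase_cases D n with ⟨⟨v, hv⟩, _⟩ | ⟨S, hS, _⟩
  · rw [hv]; exact contDiff_const
  · rw [hS]; exact shearField_contDiff S

theorem phase_per (D : FlowData) (n : ℤ) : Per (phase D n) := by
  rcases phase_cases D n with ⟨⟨v, hv⟩, _⟩ | ⟨S, hS, _⟩
  · rw [hv]; intro x i; rfl
  · rw [hS]; exact shearField_per S

theorem phase_lap (D : FlowData) (n : ℤ) (x : R3) :
    ∑ j, d1 (d1 (phase D n) j) j x = phaseLap D n x := by
  rcases phase_cases D n with ⟨⟨v, hv⟩, hL⟩ | ⟨S, hS, hL⟩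
  · rw [hv, hL]; simp [d1_const]
  · rw [hS, hL]; exact shearField_lap S x

theorem phase_nonlin (D : FlowData) (n : ℤ) (x : R3) (i : Fin 3) :
    ∑ j, phase D n x j * d1 (phase D n) j x i = 0 := by
  rcases phase_cases D n with ⟨⟨v, hv⟩, _⟩ | ⟨S, hS, _⟩
  · rw [hv]; simp [d1_const]
  · rw [hS]; exact shearField_nonlin S x i

theorem phase_div (D : FlowData) (n : ℤ) (x : R3) : ∑ j, d1 (phase D n) j x j = 0 := by
  rcases phase_cases D n with ⟨⟨v, hv⟩, _⟩ | ⟨S, hS, _⟩
  · rw [hv]; simp [d1_const]
  · rw [hS]; exact shearField_div S x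

theorem phaseLap_eq (D : FlowData) (n : ℤ) :
    phaseLap D n = fun x => ∑ j, d1 (d1 (phase D n) j) j x :=
  funext (fun x => (phase_lap D n x).symm)

theorem phaseLap_contDiff (D : FlowData) (n : ℤ) : ContDiff ℝ ∞ (phaseLap D n) := by
  rw [phaseLap_eq]
  exact ContDiff.sum (fun j _ => d1_contDiff (d1_contDiff (phase_contDiff D n) j) j)

theorem phaseLap_per (D : FlowData) (n : ℤ) : Per (phaseLap D n) := by
  rw [phaseLap_eq]
  intro x i
  exact Finset.sum_congr rfl (fun j _ => d1_per (d1_per (phase_per D n) j) j x i)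

theorem vel_contDiff (D : FlowData) : ContDiff ℝ ∞ (fun z : ℝ × R3 => vel D z.1 z.2) :=
  switch_contDiff th_contDiff (fun _ h => th_eq_zero h) (phase D) (phase_contDiff D)

theorem force_contDiff (ν : ℝ) (D : FlowData) :
    ContDiff ℝ ∞ (fun z : ℝ × R3 => force ν D z.1 z.2) := by
  have h1 := switch_contDiff th'_contDiff (fun _ h => th'_eq_zero h) (phase D) (phase_contDiff D)
  have h2 := switch_contDiff th_contDiff (fun _ h => th_eq_zero h) (phaseLap D)
    (phaseLap_contDiff D)
  have h3 := h1.sub (h2.const_smul ν)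
  have e : (fun z : ℝ × R3 => force ν D z.1 z.2) = fun z : ℝ × R3 =>
      th' (Int.fract z.1) • phase D ⌊z.1⌋ z.2 - ν • th (Int.fract z.1) • phaseLap D ⌊z.1⌋ z.2 := by
    funext z
    unfold force
    rw [mul_smul]
  rw [e]
  exact h3

theorem vel_per (D : FlowData) (t : ℝ) : Per (vel D t) := by
  intro x i
  unfold vel
  rw [phase_per D _ x i]

theorem force_per (ν : ℝ) (D : FlowData) (t : ℝ) : Per (force ν D t) := by
  intro x i
  unfold force
  rw [phase_per D _ x i, phaseLap_per D _ x i]

/-- `(vel D, 0)` is a classical solution with force `force ν D`. -/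
theorem vel_classical (ν : ℝ) (D : FlowData) (T : ℝ) :
    IsClassicalSol ν (force ν D) T (vel D) (fun _ _ => 0) := by
  refine ⟨fun t x => th' (Int.fract t) • phase D ⌊t⌋ x,
    fun j t x => th (Int.fract t) • d1 (phase D ⌊t⌋) j x,
    fun j k t x => th (Int.fract t) • d1 (d1 (phase D ⌊t⌋) j) k x,
    fun _ _ _ => 0, ?_, ?_, ?_, ?_, ?_, ?_, ?_, ?_⟩
  · exact (vel_contDiff D).continuous.continuousOn
  · exact (switch_contDiff th'_contDiff (fun _ h => th'_eq_zero h) (phase D)
      (phase_contDiff D)).continuous.continuousOn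
  · intro j
    exact (switch_contDiff th_contDiff (fun _ h => th_eq_zero h) (fun n => d1 (phase D n) j)
      (fun n => d1_contDiff (phase_contDiff D n) j)).continuous.continuousOn
  · intro j k
    exact (switch_contDiff th_contDiff (fun _ h => th_eq_zero h)
      (fun n => d1 (d1 (phase D n) j) k)
      (fun n => d1_contDiff (d1_contDiff (phase_contDiff D n) j) k)).continuous.continuousOn
  · exact continuousOn_const
  · intro j
    exact continuousOn_const
  · intro x
    unfold vel
    rw [Int.fract_zero, th_eq_zero (Or.inl (by norm_num)), zero_smul]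
  · intro t _
    refine ⟨vel_per D t, fun _ _ => rfl, by simp, fun x => ⟨?_, ?_, ?_, ?_, ?_, ?_⟩⟩
    · exact (switch_hasDerivAt hasDerivAt_th (fun _ h => th_eq_zero h)
        (fun n => phase D n x) t).hasDerivWithinAt
    · intro j
      exact (d1_hasDerivAt (phase_contDiff D ⌊t⌋) j x).const_smul (th (Int.fract t))
    · intro j k
      exact (d1_hasDerivAt (d1_contDiff (phase_contDiff D ⌊t⌋) j) k x).const_smul
        (th (Int.fract t))
    · intro j
      exact hasDerivAt_const _ _
    · intro i
      have h1 := phase_nonlin D ⌊t⌋ x i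
      have h2 := congrFun (phase_lap D ⌊t⌋ x) i
      rw [Finset.sum_apply] at h2
      unfold vel force
      simp only [Pi.smul_apply, Pi.sub_apply, smul_eq_mul]
      have e1 : ∑ j, th (Int.fract t) * phase D ⌊t⌋ x j * (th (Int.fract t) * d1 (phase D ⌊t⌋) j x i)
          = th (Int.fract t) ^ 2 * ∑ j, phase D ⌊t⌋ x j * d1 (phase D ⌊t⌋) j x i := by
        rw [Finset.mul_sum]
        exact Finset.sum_congr rfl (fun j _ => by ring)
      have e2 : ∑ j, th (Int.fract t) * d1 (d1 (phase D ⌊t⌋) j) j x i
          = th (Int.fract t) * ∑ j, d1 (d1 (phase D ⌊t⌋) j) j x i := by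
        rw [Finset.mul_sum]
      rw [e1, e2, h1, h2]
      ring
    · have h := phase_div D ⌊t⌋ x
      simp only [Pi.smul_apply, smul_eq_mul]
      rw [← Finset.mul_sum, h, mul_zero]

theorem phase_add_length (D : FlowData) {n : ℤ} (h : 1 ≤ n) :
    phase D (n + D.2.length) = phase D n := by
  rw [phase_pos D (by omega), phase_pos D (by omega)]
  congr 2
  have : (n + (D.2.length : ℤ)).toNat - 1 = (n.toNat - 1) + D.2.length := by omega
  rw [this, Nat.add_mod_right]

theorem phaseLap_add_length (D : FlowData) {n : ℤ} (h : 1 ≤ n) :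
    phaseLap D (n + D.2.length) = phaseLap D n := by
  rw [phaseLap_eq, phaseLap_eq, phase_add_length D h]

/-- after time `1` the force is periodic in time with period the number of shears -/
theorem force_time_periodic (ν : ℝ) (D : FlowData) (t : ℝ) (ht : 1 ≤ t) (x : R3) :
    force ν D (t + D.2.length) x = force ν D t x := by
  have hfl : (1 : ℤ) ≤ ⌊t⌋ := Int.le_floor.2 (by simpa using ht)
  unfold force
  rw [Int.fract_add_natCast, Int.floor_add_natCast, phase_add_length D hfl,
    phaseLap_add_length D hfl]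

/-- after time `1` the force depends on the list of shears only -/
theorem force_indep (ν : ℝ) (v v' : Q × Q × Q) (L : List Shear) (t : ℝ) (ht : 1 ≤ t) (x : R3) :
    force ν (v, L) t x = force ν (v', L) t x := by
  have hfl : (0 : ℤ) < ⌊t⌋ := by
    have : (1 : ℤ) ≤ ⌊t⌋ := Int.le_floor.2 (by simpa using ht)
    omega
  unfold force
  rw [phase_pos (v, L) hfl, phase_pos (v', L) hfl, phaseLap_pos (v, L) hfl,
    phaseLap_pos (v', L) hfl]

end Vale.Agent.Lib.P113
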