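import Vale.Agent.Lib.P113_helper7.Basic1D

/-!
P113 (F12), part a: generic facts on switched fields and directional derivatives.
-/

namespace Vale.Agent.Lib.P113
open Set Filter Topology
open scoped ContDiff

/-- the derivative of a field in the `j`-th coordinate direction -/
noncomputable def d1 (A : R3 → R3) (j : Fin 3) : R3 → R3 :=
  fun x => fderiv ℝ A x (Pi.single j 1)

theorem d1_contDiff {A : R3 → R3} (hA : ContDiff ℝ ∞ A) (j : Fin 3) : ContDiff ℝ ∞ (d1 A j) := by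
  unfold d1
  exact (hA.fderiv_right (m := ∞) (by simp)).clm_apply contDiff_const

theorem d1_hasDerivAt {A : R3 → R3} (hA : ContDiff ℝ ∞ A) (j : Fin 3) (x : R3) :
    HasDerivAt (fun s => A (Function.update x j s)) (d1 A j x) (x j) := by
  have h1 : HasFDerivAt A (fderiv ℝ A x) (Function.update x j (x j)) := by
    rw [Function.update_eq_self]
    exact (hA.differentiable (by simp)).differentiableAt.hasFDerivAt
  exact h1.comp_hasDerivAt (x j) (hasDerivAt_update x j (x j))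

theorem d1_per {A : R3 → R3} (hA : Per A) (j : Fin 3) : Per (d1 A j) := by
  intro x i
  unfold d1
  have h : (fun y => A (y + Pi.single i 1)) = A := funext (fun y => hA y i)
  have h2 := fderiv_comp_add_right (𝕜 := ℝ) (f := A) (x := x) (Pi.single i 1)
  rw [h] at h2
  rw [← h2]

/-- a switched field is jointly smooth -/
theorem switch_contDiff {g : ℝ → ℝ} (hs : ContDiff ℝ ∞ g)
    (hg : ∀ s, s ≤ 1 / 4 ∨ 3 / 4 ≤ s → g s = 0) (c : ℤ → R3 → R3)
    (hc : ∀ n, ContDiff ℝ ∞ (c n)) :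
    ContDiff ℝ ∞ (fun z : ℝ × R3 => g (Int.fract z.1) • c ⌊z.1⌋ z.2) := by
  rw [contDiff_iff_contDiffAt]
  intro z₀
  have hsw := switch_eventuallyEq hg c z₀.1
  have hev : (fun z : ℝ × R3 => g (Int.fract z.1) • c ⌊z.1⌋ z.2)
      =ᶠ[𝓝 z₀] fun z => g (z.1 - ⌊z₀.1⌋) • c ⌊z₀.1⌋ z.2 := by
    have h1 : ∀ᶠ z : ℝ × R3 in 𝓝 z₀,
        g (Int.fract z.1) • c ⌊z.1⌋ = g (z.1 - ⌊z₀.1⌋) • c ⌊z₀.1⌋ :=
      (continuous_fst.tendsto z₀).eventually hsw
    filter_upwards [h1] with z hz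
    have := congrFun hz z.2
    simpa using this
  refine ContDiffAt.congr_of_eventuallyEq ?_ hev
  apply ContDiff.contDiffAt
  exact (hs.comp (contDiff_fst.sub contDiff_const)).smul ((hc _).comp contDiff_snd)

/-- time derivative of a switched quantity -/
theorem switch_hasDerivAt {g g' : ℝ → ℝ} (hd : ∀ s, HasDerivAt g (g' s) s)
    (hg : ∀ s, s ≤ 1 / 4 ∨ 3 / 4 ≤ s → g s = 0) (c : ℤ → R3) (t : ℝ) :
    HasDerivAt (fun s : ℝ => g (Int.fract s) • c ⌊s⌋) (g' (Int.fract t) • c ⌊t⌋) t := by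
  have hsw := switch_eventuallyEq hg c t
  refine HasDerivAt.congr_of_eventuallyEq ?_ hsw
  have h1 : HasDerivAt (fun s : ℝ => g (s - ⌊t⌋)) (g' (t - ⌊t⌋)) t :=
    (hd (t - ⌊t⌋)).comp_sub_const t (⌊t⌋ : ℝ)
  exact h1.smul_const (c ⌊t⌋)

end Vale.Agent.Lib.P113
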