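import Vale.Agent.Lib.P113_helper28.Flow12a

/-!
P113 (F12), part b: the shear fields.
-/

namespace Vale.Agent.Lib.P113
open Set Filter Topology
open scoped ContDiff

theorem pieceFn_contDiff (P : Piece) : ContDiff ℝ ∞ (fun p : ℝ × ℝ => pieceFn P p.1 p.2) := by
  unfold pieceFn
  exact ((contDiff_const.mul ((bump1_contDiff _ _).comp contDiff_fst)).add
    (contDiff_const.mul ((bump0_contDiff _ _).comp contDiff_fst))).mul
    ((bump0_contDiff _ _).comp contDiff_snd)

theorem shearFn_contDiff (L : List Piece) :
    ContDiff ℝ ∞ (fun p : ℝ × ℝ => shearFn L p.1 p.2) := by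
  unfold shearFn
  induction L with
  | nil => simpa using contDiff_const
  | cons P L ih =>
    simp only [List.map_cons, List.sum_cons]
    exact (pieceFn_contDiff P).add ih

theorem shearFn_add_one_left (L : List Piece) (y z : ℝ) : shearFn L (y + 1) z = shearFn L y z := by
  unfold shearFn pieceFn
  simp only [bump0_add_one, bump1_add_one]

theorem shearFn_add_one_right (L : List Piece) (y z : ℝ) :
    shearFn L y (z + 1) = shearFn L y z := by
  unfold shearFn pieceFn
  simp only [bump0_add_one]

theorem pm_ne_pk (c : ℕ) : pm c ≠ pk c := by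
  unfold pm pk; split_ifs <;> decide
theorem pm_ne_pl (c : ℕ) : pm c ≠ pl c := by
  unfold pm pl; split_ifs <;> decide
theorem pk_ne_pl (c : ℕ) : pk c ≠ pl c := by
  unfold pk pl; split_ifs <;> decide

theorem sum_perm {E : Type*} [AddCommMonoid E] (c : ℕ) (F : Fin 3 → E) :
    ∑ j, F j = F (pm c) + F (pk c) + F (pl c) := by
  rw [Fin.sum_univ_three]
  unfold pm pk pl
  split_ifs <;> abel

theorem shearField_contDiff (S : Shear) : ContDiff ℝ ∞ (shearField S) := by
  unfold shearField
  rw [contDiff_pi]
  intro i
  have h : ContDiff ℝ ∞ (fun x : R3 => shearFn S.2 (x (pk S.1)) (x (pl S.1))) :=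
    (shearFn_contDiff S.2).comp ((contDiff_apply ℝ ℝ (pk S.1)).prodMk (contDiff_apply ℝ ℝ (pl S.1)))
  by_cases hi : i = pm S.1
  · subst hi
    simpa using h
  · have : (fun x : R3 => (Pi.single (pm S.1) (shearFn S.2 (x (pk S.1)) (x (pl S.1))) : R3) i)
        = fun _ => 0 := by
      funext x
      exact Pi.single_eq_of_ne hi _
    rw [this]
    exact contDiff_const

theorem shearField_per (S : Shear) : Per (shearField S) := by
  intro x i
  unfold shearField
  congr 1
  simp only [Pi.add_apply]
  by_cases h1 : pk S.1 = i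
  · have h2 : pl S.1 ≠ i := fun h => pk_ne_pl S.1 (h1.trans h.symm)
    rw [← h1, Pi.single_eq_same, Pi.single_eq_of_ne (h1 ▸ h2), add_zero, shearFn_add_one_left]
  · by_cases h2 : pl S.1 = i
    · rw [← h2, Pi.single_eq_same, Pi.single_eq_of_ne (h2 ▸ h1), add_zero, shearFn_add_one_right]
    · rw [Pi.single_eq_of_ne h1, Pi.single_eq_of_ne h2, add_zero, add_zero]

/-- the slices of the profile are smooth -/
theorem shearFn_slice_left (L : List Piece) (z : ℝ) : ContDiff ℝ ∞ (fun s => shearFn L s z) :=
  (shearFn_contDiff L).comp (contDiff_id.prodMk contDiff_const)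

theorem shearFn_slice_right (L : List Piece) (y : ℝ) : ContDiff ℝ ∞ (fun s => shearFn L y s) :=
  (shearFn_contDiff L).comp (contDiff_const.prodMk contDiff_id)

theorem d1_shearField_pm (S : Shear) (x : R3) : d1 (shearField S) (pm S.1) x = 0 := by
  have h1 := d1_hasDerivAt (shearField_contDiff S) (pm S.1) x
  have h2 : (fun s => shearField S (Function.update x (pm S.1) s)) = fun _ => shearField S x := by
    funext s
    unfold shearField
    rw [Function.update_of_ne (pm_ne_pk S.1).symm, Function.update_of_ne (pm_ne_pl S.1).symm]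
  rw [h2] at h1
  exact h1.unique (hasDerivAt_const _ _)

theorem hasDerivAt_single (m : Fin 3) {g : ℝ → ℝ} {g' s : ℝ} (h : HasDerivAt g g' s) :
    HasDerivAt (fun r => (Pi.single m (g r) : R3)) (Pi.single m g') s := by
  rw [hasDerivAt_pi]
  intro i
  by_cases hi : i = m
  · subst hi
    simpa using h
  · simp only [Pi.single_eq_of_ne hi]
    exact hasDerivAt_const _ _

theorem d1_shearField_pk (S : Shear) (x : R3) : d1 (shearField S) (pk S.1) x
    = Pi.single (pm S.1) (deriv (fun s => shearFn S.2 s (x (pl S.1))) (x (pk S.1))) := by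
  have h1 := d1_hasDerivAt (shearField_contDiff S) (pk S.1) x
  have h2 : (fun s => shearField S (Function.update x (pk S.1) s))
      = fun s => Pi.single (pm S.1) (shearFn S.2 s (x (pl S.1))) := by
    funext s
    unfold shearField
    rw [Function.update_self, Function.update_of_ne (pk_ne_pl S.1).symm]
  rw [h2] at h1
  have h3 : HasDerivAt (fun s => shearFn S.2 s (x (pl S.1)))
      (deriv (fun s => shearFn S.2 s (x (pl S.1))) (x (pk S.1))) (x (pk S.1)) :=
    ((shearFn_slice_left S.2 _).differentiable (by simp)).differentiableAt.hasDerivAt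
  exact h1.unique (hasDerivAt_single _ h3)

theorem d1_shearField_pl (S : Shear) (x : R3) : d1 (shearField S) (pl S.1) x
    = Pi.single (pm S.1) (deriv (fun s => shearFn S.2 (x (pk S.1)) s) (x (pl S.1))) := by
  have h1 := d1_hasDerivAt (shearField_contDiff S) (pl S.1) x
  have h2 : (fun s => shearField S (Function.update x (pl S.1) s))
      = fun s => Pi.single (pm S.1) (shearFn S.2 (x (pk S.1)) s) := by
    funext s
    unfold shearField
    rw [Function.update_self, Function.update_of_ne (pk_ne_pl S.1)]
  rw [h2] at h1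
  have h3 : HasDerivAt (fun s => shearFn S.2 (x (pk S.1)) s)
      (deriv (fun s => shearFn S.2 (x (pk S.1)) s) (x (pl S.1))) (x (pl S.1)) :=
    ((shearFn_slice_right S.2 _).differentiable (by simp)).differentiableAt.hasDerivAt
  exact h1.unique (hasDerivAt_single _ h3)

theorem hasDerivAt_deriv_of_smooth {g : ℝ → ℝ} (hg : ContDiff ℝ ∞ g) (s : ℝ) :
    HasDerivAt (deriv g) (iteratedDeriv 2 g s) s := by
  have h1 : ContDiff ℝ ∞ (deriv g) := by
    have := hg.iterate_deriv 1
    simpa using this
  have h2 : iteratedDeriv 2 g s = deriv (deriv g) s := by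
    rw [iteratedDeriv_succ, iteratedDeriv_one]
  rw [h2]
  exact (h1.differentiable (by simp)).differentiableAt.hasDerivAt

theorem d1_d1_shearField_pm (S : Shear) (x : R3) :
    d1 (d1 (shearField S) (pm S.1)) (pm S.1) x = 0 := by
  have h : d1 (shearField S) (pm S.1) = fun _ => 0 := funext (d1_shearField_pm S)
  rw [h]
  unfold d1
  simp

theorem d1_d1_shearField_pk (S : Shear) (x : R3) : d1 (d1 (shearField S) (pk S.1)) (pk S.1) x
    = Pi.single (pm S.1) (iteratedDeriv 2 (fun s => shearFn S.2 s (x (pl S.1))) (x (pk S.1))) := by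
  have h1 := d1_hasDerivAt (d1_contDiff (shearField_contDiff S) (pk S.1)) (pk S.1) x
  have h2 : (fun s => d1 (shearField S) (pk S.1) (Function.update x (pk S.1) s))
      = fun s => Pi.single (pm S.1) (deriv (fun s => shearFn S.2 s (x (pl S.1))) s) := by
    funext s
    rw [d1_shearField_pk, Function.update_self, Function.update_of_ne (pk_ne_pl S.1).symm]
  rw [h2] at h1
  exact h1.unique (hasDerivAt_single _ (hasDerivAt_deriv_of_smooth (shearFn_slice_left S.2 _) _))

theorem d1_d1_shearField_pl (S : Shear) (x : R3) : d1 (d1 (shearField S) (pl S.1)) (pl S.1) x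
    = Pi.single (pm S.1) (iteratedDeriv 2 (fun s => shearFn S.2 (x (pk S.1)) s) (x (pl S.1))) := by
  have h1 := d1_hasDerivAt (d1_contDiff (shearField_contDiff S) (pl S.1)) (pl S.1) x
  have h2 : (fun s => d1 (shearField S) (pl S.1) (Function.update x (pl S.1) s))
      = fun s => Pi.single (pm S.1) (deriv (fun s => shearFn S.2 (x (pk S.1)) s) s) := by
    funext s
    rw [d1_shearField_pl, Function.update_self, Function.update_of_ne (pk_ne_pl S.1)]
  rw [h2] at h1
  exact h1.unique (hasDerivAt_single _ (hasDerivAt_deriv_of_smooth (shearFn_slice_right S.2 _) _))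

/-- the Laplacian of a shear field -/
theorem shearField_lap (S : Shear) (x : R3) :
    ∑ j, d1 (d1 (shearField S) j) j x = shearFieldLap S x := by
  rw [sum_perm S.1, d1_d1_shearField_pm, d1_d1_shearField_pk, d1_d1_shearField_pl, zero_add,
    ← Pi.single_add]
  rfl

/-- the nonlinear term of a shear field vanishes -/
theorem shearField_nonlin (S : Shear) (x : R3) (i : Fin 3) :
    ∑ j, shearField S x j * d1 (shearField S) j x i = 0 := by
  rw [sum_perm S.1, d1_shearField_pm]
  have h1 : shearField S x (pk S.1) = 0 := by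
    unfold shearField; exact Pi.single_eq_of_ne (pm_ne_pk S.1).symm _
  have h2 : shearField S x (pl S.1) = 0 := by
    unfold shearField; exact Pi.single_eq_of_ne (pm_ne_pl S.1).symm _
  rw [h1, h2]
  simp

/-- a shear field is divergence free -/
theorem shearField_div (S : Shear) (x : R3) : ∑ j, d1 (shearField S) j x j = 0 := by
  rw [sum_perm S.1 (fun j => d1 (shearField S) j x j), d1_shearField_pm, d1_shearField_pk,
    d1_shearField_pl, Pi.single_eq_of_ne (pm_ne_pk S.1).symm, Pi.single_eq_of_ne (pm_ne_pl S.1).symm]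
  simp

end Vale.Agent.Lib.P113
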